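import Mathlib

set_option autoImplicit false

/-! P052.TetrahedraInFour, row RCAP (helper117). -/

namespace Vale.Agent.P052.R3.H117

theorem rcap_fin {u σ g : ℝ} (hg : 0 ≤ g) (hgu : g ≤ u) (hu2 : u < 2) (hσ : 0 ≤ σ)
    (h1 : 2 + σ + g ^ 2 ≤ (2 - u) ^ 2) (h2 : 2 + 4 * g ^ 2 ≤ σ ^ 2 + 4 * (1 - u) ^ 2)
    (h3 : 2 / 25 * (1 + σ) ≤ g ^ 2) : False := by
  have hu1 : u ≤ 1 := by
    by_contra hc
    push Not at hc
    have : (2 - u) ^ 2 ≤ 1 ^ 2 := pow_le_pow_left₀ (by linarith) (by linarith) 2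
    linarith [sq_nonneg g]
  have e1 : (2 - u) ^ 2 ≤ (2 - g) ^ 2 := pow_le_pow_left₀ (by linarith) (by linarith) 2
  have e2 : (1 - u) ^ 2 ≤ (1 - g) ^ 2 := pow_le_pow_left₀ (by linarith) (by linarith) 2
  have e1' : (2 - g) ^ 2 = 4 - 4 * g + g ^ 2 := by ring
  have e2' : (1 - g) ^ 2 = 1 - 2 * g + g ^ 2 := by ring
  have e3 : σ ≤ 2 - 4 * g := by linarith
  have e4 : 8 * g - 2 ≤ σ ^ 2 := by linarith
  have e5 : 7 / 25 < g := by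
    by_contra hc
    push Not at hc
    have : g ^ 2 ≤ (7 / 25) ^ 2 := pow_le_pow_left₀ hg hc 2
    have h7 : ((7 : ℝ) / 25) ^ 2 = 49 / 625 := by norm_num
    linarith
  rcases le_or_gt g (33 / 100) with h | h
  · have e6 : g ^ 2 ≤ (33 / 100) ^ 2 := pow_le_pow_left₀ hg h 2
    have e6' : ((33 : ℝ) / 100) ^ 2 = 1089 / 10000 := by norm_num
    have e7 : σ ≤ 37 / 100 := by linarith
    have e8 : σ ^ 2 ≤ (37 / 100) ^ 2 := pow_le_pow_left₀ hσ e7 2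
    have e9 : ((37 : ℝ) / 100) ^ 2 = 1369 / 10000 := by norm_num
    linarith
  · have e7 : σ ≤ 68 / 100 := by linarith
    have e8 : σ ^ 2 ≤ (68 / 100) ^ 2 := pow_le_pow_left₀ hσ e7 2
    have e9 : ((68 : ℝ) / 100) ^ 2 = 4624 / 10000 := by norm_num
    linarith

theorem rcap_xy {x y h k ρ ε P Q : ℝ} (hx : 0 ≤ x) (hy : 0 ≤ y) (hx1 : x < 1) (hy1 : y < 1)
    (hh : 0 ≤ h) (hk : 0 ≤ k) (hρ : 2 / 25 * ((1 + h) * (1 + k)) ≤ ρ) (hε : 0 ≤ ε)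
    (h0 : ε + ρ ≤ 4 * (x * y))
    (h2 : (1 + k) + 4 * y + (1 + h) + 4 * x - 4 ≤ ε)
    (h3 : 0 ≤ (1 + h) ^ 2 - 2 * P ^ 2 + 4 * x ^ 2 + (1 + k) ^ 2 - 2 * Q ^ 2 + 4 * y ^ 2 + 2 * ε -
      2 * (1 + h) - 8 * x - 2 * (1 + k) - 8 * y + 4) (hPQ : 2 * (P * Q) = ρ) : False := by
  have hρ0 : 0 ≤ ρ := le_trans (by positivity) hρ
  have hg2 : Real.sqrt ρ ^ 2 = ρ := Real.sq_sqrt hρ0
  have hxy : 4 * (x * y) ≤ (x + y) ^ 2 := by nlinarith [sq_nonneg (x - y)]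
  have hgu : Real.sqrt ρ ≤ x + y := by
    refine Real.sqrt_le_iff.2 ⟨by linarith, by linarith⟩
  refine rcap_fin (u := x + y) (σ := h + k) (Real.sqrt_nonneg ρ) hgu (by linarith)
    (by linarith) ?_ ?_ ?_
  · rw [hg2]
    have e : (2 - (x + y)) ^ 2 = 4 - 4 * x - 4 * y + (x + y) ^ 2 := by ring
    rw [e]
    linarith
  · rw [hg2]
    have e : (h + k) ^ 2 + 4 * (1 - (x + y)) ^ 2 = h ^ 2 + k ^ 2 + 2 * (h * k) + 4 - 8 * x - 8 * y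
        + 4 * x ^ 2 + 4 * y ^ 2 + 8 * (x * y) := by ring
    rw [e]
    have e2 : 0 ≤ h * k := mul_nonneg hh hk
    have e3 : 2 * (P * Q) ≤ P ^ 2 + Q ^ 2 := by nlinarith [sq_nonneg (P - Q)]
    have e4 : (1 + h) ^ 2 = 1 + 2 * h + h ^ 2 := by ring
    have e5 : (1 + k) ^ 2 = 1 + 2 * k + k ^ 2 := by ring
    rw [e4, e5] at h3
    linarith
  · rw [hg2]
    refine le_trans ?_ hρ
    have e2 : 0 ≤ h * k := mul_nonneg hh hk
    have e3 : (1 + h) * (1 + k) = 1 + (h + k) + h * k := by ring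
    rw [e3]
    linarith

theorem real_cap {A B κ ω z z' E : ℝ} (hA1 : A ≤ 1) (hB1 : B ≤ 1) (hκA : κ < A) (hωB : ω < B)
    (hκ : -(1/4) ≤ κ) (hω : -(1/4) ≤ ω) (hz : 1/5 ≤ z) (hz' : 1/5 ≤ z')
    (hSA : 1 - 2 * z ^ 2 + 4 * κ ^ 2 ≤ (1 + 4 * κ) ^ 2)
    (hSB : 1 - 2 * z' ^ 2 + 4 * ω ^ 2 ≤ (1 + 4 * ω) ^ 2) (h0 : 0 ≤ E)
    (h2 : A * (1 + 4 * ω) + B * (1 + 4 * κ) - 4 * (A * B) ≤ E)
    (h3 : 0 ≤ B ^ 2 * (1 - 2 * z ^ 2 + 4 * κ ^ 2) + A ^ 2 * (1 - 2 * z' ^ 2 + 4 * ω ^ 2) +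
      2 * (A * B) * E - 2 * (A * B ^ 2) * (1 + 4 * κ) - 2 * (A ^ 2 * B) * (1 + 4 * ω) +
      4 * (A ^ 2 * B ^ 2)) : 4 * (κ * ω) < E + 2 * (z * z') := by
  have hzz : 1 / 25 ≤ z * z' := by
    have := mul_le_mul hz hz' (by norm_num) (by linarith : (0 : ℝ) ≤ z)
    linarith
  rcases le_or_gt (κ * ω) 0 with hs | hs
  · linarith
  rcases lt_or_ge κ 0 with hκ0 | hκ0
  · -- both negative
    have hω0 : ω < 0 := by
      by_contra hc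
      push Not at hc
      nlinarith
    have a1 : 5 / 2 * (-κ) ≤ z ^ 2 := by nlinarith
    have a2 : 5 / 2 * (-ω) ≤ z' ^ 2 := by nlinarith
    have a3 : 25 / 4 * (κ * ω) ≤ (z * z') ^ 2 := by
      have := mul_le_mul a1 a2 (by linarith) (by positivity)
      have e : (z * z') ^ 2 = z ^ 2 * z' ^ 2 := by ring
      have e' : 25 / 4 * (κ * ω) = 5 / 2 * (-κ) * (5 / 2 * (-ω)) := by ring
      rw [e, e']
      exact this
    have a4 : κ * ω ≤ 1 / 16 := by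
      have h7 := mul_le_mul (show -κ ≤ 1 / 4 by linarith) (show -ω ≤ 1 / 4 by linarith)
        (by linarith) (by norm_num)
      have e7 : -κ * -ω = κ * ω := by ring
      rw [e7] at h7
      linarith
    have a5 : (2 * (κ * ω)) ^ 2 < (z * z') ^ 2 := by
      have h8 : (κ * ω) * (κ * ω) ≤ 1 / 16 * (κ * ω) := mul_le_mul_of_nonneg_right a4 hs.le
      have e8 : (2 * (κ * ω)) ^ 2 = 4 * ((κ * ω) * (κ * ω)) := by ring
      rw [e8]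
      linarith
    have a6 : 2 * (κ * ω) < z * z' := lt_of_pow_lt_pow_left₀ 2 (by linarith) a5
    linarith
  · have hω0 : 0 ≤ ω := by
      by_contra hc
      push Not at hc
      nlinarith
    by_contra hcon
    push Not at hcon
    have hA : 0 < A := by linarith
    have hB : 0 < B := by linarith
    have ha1 : 1 ≤ A⁻¹ := (one_le_inv₀ hA).2 hA1
    have hb1 : 1 ≤ B⁻¹ := (one_le_inv₀ hB).2 hB1
    have ha0 : 0 < A⁻¹ := by positivity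
    have hb0 : 0 < B⁻¹ := by positivity
    have hab : 0 < A⁻¹ * B⁻¹ := by positivity
    refine rcap_xy (x := κ * A⁻¹) (y := ω * B⁻¹) (h := A⁻¹ - 1) (k := B⁻¹ - 1)
      (ρ := 2 * (z * z') * (A⁻¹ * B⁻¹)) (ε := E * (A⁻¹ * B⁻¹)) (P := z * A⁻¹) (Q := z' * B⁻¹)
      (by positivity) (by positivity) ?_ ?_ (by linarith) (by linarith) ?_ (by positivity)
      ?_ ?_ ?_ (by ring)
    · rw [← div_eq_mul_inv, div_lt_one hA]; exact hκA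
    · rw [← div_eq_mul_inv, div_lt_one hB]; exact hωB
    · have e : (1 + (A⁻¹ - 1)) * (1 + (B⁻¹ - 1)) = A⁻¹ * B⁻¹ := by ring
      rw [e]
      have := mul_le_mul_of_nonneg_right hzz hab.le
      linarith
    · have := mul_le_mul_of_nonneg_right hcon hab.le
      have e : 4 * (κ * ω) * (A⁻¹ * B⁻¹) = 4 * (κ * A⁻¹ * (ω * B⁻¹)) := by ring
      rw [e] at this
      linarith
    · have := mul_le_mul_of_nonneg_right h2 hab.le
      have e : (A * (1 + 4 * ω) + B * (1 + 4 * κ) - 4 * (A * B)) * (A⁻¹ * B⁻¹) =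
          1 + (B⁻¹ - 1) + 4 * (ω * B⁻¹) + (1 + (A⁻¹ - 1)) + 4 * (κ * A⁻¹) - 4 := by
        field_simp
        ring
      rw [e] at this
      exact this
    · have := mul_nonneg (sq_nonneg (A⁻¹ * B⁻¹)) h3
      have e : (A⁻¹ * B⁻¹) ^ 2 * (B ^ 2 * (1 - 2 * z ^ 2 + 4 * κ ^ 2) +
          A ^ 2 * (1 - 2 * z' ^ 2 + 4 * ω ^ 2) +
          2 * (A * B) * E - 2 * (A * B ^ 2) * (1 + 4 * κ) - 2 * (A ^ 2 * B) * (1 + 4 * ω) +
          4 * (A ^ 2 * B ^ 2)) = (1 + (A⁻¹ - 1)) ^ 2 - 2 * (z * A⁻¹) ^ 2 + 4 * (κ * A⁻¹) ^ 2 +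
          (1 + (B⁻¹ - 1)) ^ 2 - 2 * (z' * B⁻¹) ^ 2 + 4 * (ω * B⁻¹) ^ 2 +
          2 * (E * (A⁻¹ * B⁻¹)) - 2 * (1 + (A⁻¹ - 1)) - 8 * (κ * A⁻¹) -
          2 * (1 + (B⁻¹ - 1)) - 8 * (ω * B⁻¹) + 4 := by
        field_simp
        ring
      rw [e] at this
      exact this

end Vale.Agent.P052.R3.H117
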